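import Vale.Agent.P281.H723.FL.NumR
import Vale.Agent.P281.H167.RC.Main
import Vale.Agent.P281.H575.MFS.Fib

/-! P281, theorem U: the fibre side with rational curves. -/

open scoped Manifold ContDiff Topology ComplexOrder
open Set Filter Vale.Agent.P272.K Vale.Agent.P299
open Vale.Agent.P299.D (Ten tenPull FormM)

set_option linter.all false

noncomputable section

namespace Vale.Agent.P281.H723.U

open Vale.Agent.P281 Vale.Agent.P281.MF Vale.Agent.P281.ISO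
open Vale.Agent.P281.H713 Vale.Agent.P281.H713.SA Vale.Agent.P281.H716 Vale.Agent.P281.H167
open Vale.Agent.P281.H713.TL Vale.Agent.P281.H167.RC
open Vale.Agent.P281.H368.MFS (IsSemiPos VolLoc ConAt SmallAt InKer)
open Vale.Agent.P281.H167.ML (RatAtM RatPartM)

/-- `κ(f | Δ) ≥ 0` gives a tensor on `X`. -/
theorem exists_tensor (hT : TensT) {n p : ℕ} {X Z Y : Type}
    [TopologicalSpace X] [T2Space X] [CompactSpace X] [ConnectedSpace X]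
    [ChartedSpace (Cm n) X] [IsManifold 𝓘(ℂ, Cm n) ω X]
    [TopologicalSpace Z] [ChartedSpace (Cm n) Z] [IsManifold 𝓘(ℂ, Cm n) ω Z]
    [TopologicalSpace Y] [T2Space Y] [ConnectedSpace Y]
    [ChartedSpace (Cm p) Y] [IsManifold 𝓘(ℂ, Cm p) ω Y]
    {Δ : Set X → ℝ} (hΔ : J.IsSNC (Cm n) Δ)
    {j : Z → X} (hj : J.IsBigOpen (Cm n) j) {f : Z → Y} (hf : ContMDiff 𝓘(ℂ, Cm n) 𝓘(ℂ, Cm p) ω f)
    (hsub : ∃ z, Function.Surjective (mfderiv 𝓘(ℂ, Cm n) 𝓘(ℂ, Cm p) f z))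
    (hbot : kodF (n := n) (p := p) Δ j f ≠ ⊥) :
    ∃ (m₁ : ℕ) (K : Set X → ℕ) (τ : Ten n (m₁ * p) X) (O : Set Y), 0 < m₁ ∧
      (∀ D, (K D : ℝ) = m₁ * Δ D) ∧ IsTenP (m₁ * p) K τ ∧ IsOpen O ∧ Dense O ∧
      ∀ z, f z ∈ O → (∀ D, Δ D ≠ 0 → j z ∉ D) → ∃ s : ℂ, s ≠ 0 ∧
        ∀ e, At e (j z) → ∀ I, τ e (e (j z)) I = s * tT f m₁ (fun z => e (j z)) I z := by
  classical
  -- a nonzero section
  have hex : ∃ (m₁ : ℕ) (K₀ : Set X → ℕ) (𝒢 : Set (Set Y)) (σ : Y → ℂ) (y : Y), 0 < m₁ ∧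
      (∀ D, (K₀ D : ℝ) ≤ m₁ * Δ D) ∧ 𝒢.Finite ∧ (∀ G ∈ 𝒢, J.IsPrime (Cm p) G) ∧
      IsPullSection (n := n) (p := p) m₁ K₀ 𝒢 j f σ ∧ (∀ G ∈ 𝒢, y ∉ G) ∧ σ y ≠ 0 := by
    by_contra hcon
    apply hbot
    refine le_bot_iff.1 (iSup₂_le fun l hl => ?_)
    obtain ⟨m₁, K₀, 𝒢, σ, y, h1, h2, h3, h4, h5, h6, h7, -⟩ := hl
    exact absurd ⟨m₁, K₀, 𝒢, σ 0, y, h1, h2, h3, h4, h5 0, h6, h7⟩ hcon
  obtain ⟨m₁, K₀, 𝒢, σ, y₀, hm₁, hK₀, h𝒢f, h𝒢p, hσ, hy₀, hσy⟩ := hex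
  obtain ⟨l, K, hl, hK⟩ := exists_denom hΔ m₁
  obtain ⟨τ, hτ, hval⟩ := hT n p X Z Y j hj f hf hsub 𝒢 h𝒢f h𝒢p Δ hΔ m₁ hm₁ K₀ hK₀ σ hσ l hl K hK
  obtain ⟨κ, hκ, hsec⟩ := hσ.mero
  have hfin : {G | κ G ≠ 0}.Finite := h𝒢f.subset fun G hG => hκ G hG
  have hod := open_dense_ne (E₀ := Cm p) (F := Y) (m := m₁) (κ := κ) hfin
    (fun G hG => h𝒢p G (hκ G hG)) hsec ⟨y₀, fun G hG => hy₀ G (hκ G hG), hσy⟩
  set O : Set Y := {y | (∀ G, κ G ≠ 0 → y ∉ G) ∧ σ y ≠ 0} ∩ (⋃₀ 𝒢)ᶜ with hO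
  have hclosed : IsClosed (⋃₀ 𝒢) := by
    rw [sUnion_eq_biUnion]
    exact h𝒢f.isClosed_biUnion fun G hG => (h𝒢p G hG).1
  have hdense : Dense (⋃₀ 𝒢)ᶜ := by
    have h1 : (⋃₀ 𝒢)ᶜ = {y : Y | ∀ G, G ∈ 𝒢 → y ∉ G} := by
      ext y
      simp [mem_sUnion]
    rw [h1]
    have h2 := isOpen_off (E₀ := Cm p) (F := Y) (κ := fun G => if G ∈ 𝒢 then 1 else 0)
      (by
        refine h𝒢f.subset fun G hG => ?_
        by_contra h
        exact hG (if_neg h)) (fun G hG => by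
        refine h𝒢p G ?_
        by_contra h
        exact hG (if_neg h))
    refine h2.2.mono ?_
    intro y hy G hG
    exact hy G (by simp [hG])
  have hOo : IsOpen O := hod.1.inter hclosed.isOpen_compl
  have hOd : Dense O := hod.2.inter_of_isOpen_left hdense hod.1
  exact ⟨m₁ * l, K, τ, O, Nat.mul_pos hm₁ hl, hK, hτ, hOo, hOd, fun z hz hzD =>
    ⟨σ (f z) ^ l, pow_ne_zero _ hz.1.2, fun e he I => hval e z he hz.2 hzD I⟩⟩

/-- **Theorem U**, the fibre side, with rational curves. -/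
theorem numPartR_of (hR : RatPartM) (hT : TensT) (hF : H723.FL.NumPartF) : H723.FL.NumPartR := by
  intro n p d hn X Z Y F _ _ _ _ _ _ _ _ _ _ _ _ _ _ _ _ _ _ _ _ χ hχ Δ hΔ m hm k hk θ β hθ hβ W
    j hj f hf i hi hne hβd ν hν hν' hV
  by_cases hbot : kodF (n := n) (p := p) Δ j f = ⊥
  · rw [hbot, WithBot.add_bot]
    exact bot_le
  obtain ⟨t₀⟩ : Nonempty F := inferInstance
  obtain ⟨m₁, K, τ, O, hm₁, hK, hτ, hOo, hOd, hval⟩ := exists_tensor hT hΔ hj hf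
    ⟨i t₀, hi.submersive t₀⟩ hbot
  have hιh : ∀ t, HolM (Cm d) (Cm n) (fun s => j (i s)) t := fun t =>
    ContMDiffAt.comp t (hj.1 (i t)) (hi.hol t)
  have hι : ContMDiff 𝓘(ℂ, Cm d) 𝓘(ℂ, Cm n) ω fun s => j (i s) := fun t => hιh t
  have hβF := H575.MFS.isSemiPos_pull hι hβ
  refine add_le_add ?_ le_rfl
  refine hF n p d hn X Z Y F χ hχ Δ hΔ m hm k hk θ hθ W j hj f hf i hi hne _ hβF hβd ν hν hν'
    fun t => ?_
  obtain ⟨r, g, a, hL, hg, hl⟩ := hV t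
  refine ⟨r, g, a, hL, hg, eventually_all.2 fun l => ?_⟩
  rcases hl l with hrat | h
  · have hc : ContinuousAt (fun s => j (i s)) t := (hιh t).continuousAt
    have h2 := hc.eventually (eventually_eventually_nhds.2 hrat)
    have h3 : ∀ᶠ s in 𝓝 t, J.HolAt (Cm n) (g l) (j (i s)) :=
      hc.eventually (HolV.eventually (E := Cm n) (hL.holg l).1)
    have h5 : ∀ᶠ s in 𝓝 t, J.dif (Cm d) (fun s => g l (j (i s))) s ≠ 0 := by
      have hgl : HolV (Cm d) (fun s => g l (j (i s))) t :=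
        ContMDiffAt.comp t (hL.holg l).1 (hιh t)
      have hsurj : Function.Surjective (dV (Cm d) (fun s => g l (j (i s))) t) := by
        obtain ⟨ξ, hξ⟩ : ∃ ξ, dV (Cm d) (fun s => g l (j (i s))) t ξ ≠ 0 := by
          by_contra hcon
          push Not at hcon
          exact (hg l) (ContinuousLinearMap.ext hcon)
        intro y
        refine ⟨(y / dV (Cm d) (fun s => g l (j (i s))) t ξ) • ξ, ?_⟩
        rw [map_smul, smul_eq_mul, div_mul_cancel₀ _ hξ]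
      filter_upwards [surj_dV_open hgl hsurj] with s hs hcon
      obtain ⟨ξ, hξ⟩ := hs 1
      have hcon' : dV (Cm d) (fun s => g l (j (i s))) s = 0 := hcon
      rw [hcon'] at hξ
      exact zero_ne_one hξ
    filter_upwards [h2, h3, h5] with s k2 k3 k5 hs
    exact Or.inl (hR n p d hn X Z Y F j hj f hf Δ hΔ m₁ hm₁ K hK τ hτ O hOo hOd hval i hi β θ hβ hθ
      (g l) s k3 k5 hs k2)
  · exact h

end Vale.Agent.P281.H723.U
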