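import Vale.Agent.P281.H723.U.Main
import Vale.Agent.P281.H716.LC.Fin
import Vale.Agent.P281.H368.MFS.Gr2
import Vale.Agent.P281.H575.U.Kod

/-! P281, theorem U, log canonical form. -/

namespace Vale.Agent.P281.H723.U

open Vale.Agent.P281

/-- **Theorem U**, first form. -/
theorem numPart : H723.FL.NumPart :=
  numPart_of H342.KG.formPartG H368.MFS.growthPartM H716.LC.corePartC

/-- **Theorem U**, the fibre side. -/
theorem numPartF : H723.FL.NumPartF := by
  intro n p d hn X Z Y F _ _ _ _ _ _ _ _ _ _ _ _ _ _ _ _ _ _ _ _ χ hχ Δ hΔ m hm k hk θ hθ W j hj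
    f hf i hi hne β hβ hβd ν hν hν' hV
  exact H575.U.kodF_le1 H368.MFS.growthPartM hn hχ hΔ hm hk hθ hj hf hi hne hβ hβd hν hν' hV

end Vale.Agent.P281.H723.U
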