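import Vale.Agent.P281.H723.U.Fin
import Vale.Agent.P281.H723.U.Rat
import Vale.Agent.P281.H716.ML.Rat

/-! P281, theorem U: the fibre side with rational curves. -/

namespace Vale.Agent.P281.H723.U

open Vale.Agent.P281

/-- **Theorem U**, the fibre side, with rational curves. -/
theorem numPartR : H723.FL.NumPartR :=
  numPartR_of H716.ML.ratPartM H498.tensT numPartF

end Vale.Agent.P281.H723.U
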